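import Vale.Agent.P218UN.Om

/-! Closure properties of the sets `Om` at quiet levels, and the dichotomy at the lowest level. -/

open MeasureTheory Set Filter Topology Metric
open scoped RealInnerProductSpace ContDiff

namespace Vale.Agent.P218UN

open Vale.Agent.P218UA Vale.Agent.P218UM Vale.Agent.P218UG Vale.Agent.P218UO Vale.Agent.P218UD

/-- the conclusion of `QSStmt` for given constants -/
def QSat (A c₁ θ σ δ : ℝ) : Prop :=
  ∀ w I, IsARFlow w I A → ∀ (t : ℝ) (x : E3) (y : ℝ), Quiet w I δ t x y →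
    (w t x = 0 → tbar w σ t x (y - (20 * A - 13)) ≤ 27 / 20 →
      (∀ r, r ≤ Real.exp (y + 1 / 2) → ¬Reg (w t) θ x r → ∃ z ∈ ball x r, w t z = 0 ∧
        c₁ * Real.exp (y + 1 / 2) ≤ |⟪z - x, gradient (w t) x⟫|) ∧
      ∀ y', y' ≤ y - (20 * A - 13) - 3 → tbar w σ t x y' ≤ 6 / 5) ∧
    ∀ y', y - (20 * A - 13) - 5 ≤ y' → y' ≤ y - 1 → 5 / 4 ≤ tbar w σ t x y' →
      17 / 10 ≤ tbar w σ t x (y' + 2)

lemma qsat_of (h : QSStmt) {A : ℝ} (hA : 1 ≤ A) : ∃ c₁ > 0, c₁ ≤ 1 ∧ ∀ θ > 0, ∃ σ₀ > 0,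
    ∀ σ, 0 < σ → σ ≤ σ₀ → ∃ δ > 0, QSat A c₁ θ σ δ := h A hA

variable {w : ℝ → E3 → ℝ} {I : Set ℝ} {A c₁ σ θ δ t y : ℝ} {x : E3}

/-- a large mass ratio far below a quiet level puts the level into `Om` -/
lemma mem_Om_of_tbar (hw : IsARFlow w I A) (hσ1 : σ ≤ 1) (hq : Quiet w I δ t x y)
    (h : 13 / 10 < tbar w σ t x (y - (20 * A - 13))) : y ∈ Om w I A σ θ t x :=
  Or.inr ⟨_, Quiet.window hσ1 hq (by linarith [hw.one_le]), h, by linarith⟩

lemma cat {X Y Z : Type*} [TopologicalSpace X] [TopologicalSpace Y] [TopologicalSpace Z]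
    {g : Y → Z} (f : X → Y) (a : X) (hg : ContinuousAt g (f a)) (hf : Continuous f) :
    ContinuousAt (fun x => g (f x)) a := hg.comp hf.continuousAt

lemma ev_far (hw : IsFlow w I) (ht : t ∈ I) {B : ℝ}
    (n1 : ∀ z, ‖z - x‖ ≤ Real.exp y → w t z = 0 → |⟪z - x, gradient (w t) x⟫| < B) (R : ℝ) :
    ∀ᶠ q : TL in 𝓝 (t, x, y), ∀ z ∈ closedBall x R, Real.exp q.2.2 < ‖z - q.2.1‖ ∨ w q.1 z ≠ 0 ∨
      |⟪z - q.2.1, gradient (w q.1) q.2.1⟫| < B := by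
  refine (isCompact_closedBall _ _).eventually_forall_of_forall_eventually fun z _ => ?_
  by_cases a1 : ‖z - x‖ ≤ Real.exp y
  · by_cases a2 : w t z = 0
    · have c1 := cat (fun b : TL × E3 => ((b.1.1, b.1.2.1) : ST)) ((t, x, y), z)
        (cd_Nu hw (p := (t, x)) ht).continuousAt (by fun_prop)
      have c0 : ContinuousAt (fun b : TL × E3 => b.2 - b.1.2.1) ((t, x, y), z) := by fun_prop
      exact ((c0.inner (𝕜 := ℝ) c1).abs.eventually_lt continuousAt_const (n1 z a1 a2)).mono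
        fun b hb => Or.inr (Or.inr hb)
    · have c1 := cat (fun b : TL × E3 => ((b.1.1, b.2) : ST)) ((t, x, y), z)
        (cd_Wt hw (p := (t, z)) ht).continuousAt (by fun_prop)
      exact (c1.eventually_ne a2).mono fun b hb => Or.inr (Or.inl hb)
  · have c1 : ContinuousAt (fun b : TL × E3 => Real.exp b.1.2.2) ((t, x, y), z) := by fun_prop
    have c2 : ContinuousAt (fun b : TL × E3 => ‖b.2 - b.1.2.1‖) ((t, x, y), z) := by fun_prop
    exact (c1.eventually_lt c2 (not_le.1 a1)).mono fun b hb => Or.inl hb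

lemma cat_tbar (hC : Calc) (hw : IsFlow w I) (hσ : 0 < σ) (hσ1 : σ ≤ 1) (hq : Quiet w I δ t x y)
    {y' : ℝ} (hy' : y' ≤ y + 1) :
    ContinuousAt (fun b : TL × ℝ => tbar w σ b.1.1 b.1.2.1 b.2) ((t, x, y), y') :=
  cat (fun b : TL × ℝ => ((b.1.1, b.1.2.1, b.2) : TL)) ((t, x, y), y')
    (contDiffAt_tbar hC hw hσ (a := (t, x, y')) (Quiet.window hσ1 hq hy')).continuousAt
    (by fun_prop)

lemma ev_mass (hC : Calc) (hw : IsFlow w I) (hσ : 0 < σ) (hσ1 : σ ≤ 1) (hq : Quiet w I δ t x y)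
    {a : ℝ} (n2 : ∀ y' ∈ Icc a (y + 1 / 2), 13 / 10 ≤ tbar w σ t x y' →
      y < y' + 10 * (2 * A - tbar w σ t x y')) :
    ∀ᶠ q : TL in 𝓝 (t, x, y), ∀ y' ∈ Icc a (y + 1 / 2),
      tbar w σ q.1 q.2.1 y' < 13 / 10 ∨ q.2.2 < y' + 10 * (2 * A - tbar w σ q.1 q.2.1 y') := by
  refine isCompact_Icc.eventually_forall_of_forall_eventually fun y' hy' => ?_
  have c1 := cat_tbar hC hw hσ hσ1 hq (y' := y') (by linarith [hy'.2])
  by_cases a1 : 13 / 10 ≤ tbar w σ t x y'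
  · have c2 : ContinuousAt (fun b : TL × ℝ => b.1.2.2) ((t, x, y), y') := by fun_prop
    exact (c2.eventually_lt (continuousAt_snd.add (continuousAt_const.mul
      (continuousAt_const.sub c1))) (n2 y' hy' a1)).mono fun b hb => Or.inr hb
  · exact (c1.eventually_lt continuousAt_const (not_le.1 a1)).mono fun b hb => Or.inl hb

/-- limits of levels in `Om` -/
theorem cl_core (hC : Calc) (hQ : QSat A c₁ θ σ δ) (hw : IsARFlow w I A) (hσ : 0 < σ)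
    (hσ1 : σ ≤ 1) (hq : Quiet w I δ t x y) (h13 : tbar w σ t x (y - (20 * A - 13)) ≤ 13 / 10)
    (hf : ∃ᶠ q : TL in 𝓝 (t, x, y), w q.1 q.2.1 = 0 ∧ q.2.2 ∈ Om w I A σ θ q.1 q.2.1) :
    (∃ z, ‖z - x‖ ≤ Real.exp y ∧ w t z = 0 ∧
      c₁ * Real.exp (y + 1 / 2) ≤ |⟪z - x, gradient (w t) x⟫|) ∨
    ∃ y' ∈ Icc (y - (20 * A - 13) - 3) (y + 1 / 2), 13 / 10 ≤ tbar w σ t x y' ∧
      y' + 10 * (2 * A - tbar w σ t x y') ≤ y := by
  by_contra hne
  push Not at hne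
  obtain ⟨n1, n2⟩ := hne
  have hA := hw.one_le
  have e1 := ev_far hw.toIsFlow (Quiet.mem hq) n1 (Real.exp (y + 1 / 2) + 1)
  have e2 := ev_mass hC hw.toIsFlow hσ hσ1 hq n2
  have e3 : ∀ᶠ q : TL in 𝓝 (t, x, y), Quiet w I δ q.1 q.2.1 y :=
    (show Tendsto (fun q : TL => ((q.1, q.2.1, y) : TL)) (𝓝 (t, x, y)) (𝓝 (t, x, y)) from
      Continuous.tendsto' (by fun_prop) _ _ rfl).eventually (ev_quiet hC hw (a := (t, x, y)) hq)
  have c4 := cat (fun q : TL => ((q, y - (20 * A - 13)) : TL × ℝ)) (t, x, y)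
    (cat_tbar hC hw.toIsFlow hσ hσ1 hq (y' := y - (20 * A - 13)) (by linarith)) (by fun_prop)
  have e4 : ∀ᶠ q : TL in 𝓝 (t, x, y), tbar w σ q.1 q.2.1 (y - (20 * A - 13)) < 27 / 20 :=
    c4.eventually_lt continuousAt_const (h13.trans_lt (by norm_num))
  have c5 : ContinuousAt (fun q : TL => q.2.2) (t, x, y) := by fun_prop
  have e5 : ∀ᶠ q : TL in 𝓝 (t, x, y), q.2.2 < y + 1 / 2 :=
    c5.eventually_lt continuousAt_const (by simp)
  have c6 : ContinuousAt (fun q : TL => ‖q.2.1 - x‖) (t, x, y) := by fun_prop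
  have e6 : ∀ᶠ q : TL in 𝓝 (t, x, y), ‖q.2.1 - x‖ < 1 :=
    c6.eventually_lt continuousAt_const (by simp)
  obtain ⟨q, ⟨h0, hO⟩, g1, g2, g3, g4, g5, g6⟩ :=
    (hf.and_eventually (e1.and (e2.and (e3.and (e4.and (e5.and e6)))))).exists
  obtain ⟨Q1, Q3⟩ := (hQ w I hw q.1 q.2.1 y g3).1 h0 g4.le
  rcases hO with hO | ⟨y', h1, h2, h3⟩
  · have a1 := Real.exp_le_exp.2 g5.le
    obtain ⟨z, hz, hz0, hz1⟩ := Q1 _ a1 hO
    rw [mem_ball_iff_norm] at hz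
    have a2 := norm_sub_le_norm_sub_add_norm_sub z q.2.1 x
    rcases g1 z (mem_closedBall_iff_norm.2 (by linarith)) with h | h | h
    · linarith
    · exact h hz0
    · linarith
  · have a1 := tbar_le_AR hw hσ q.2.1 h1
    have a2 : y - (20 * A - 13) - 3 ≤ y' := by
      by_contra a3
      linarith [Q3 y' (not_le.1 a3).le]
    rcases g2 y' ⟨a2, by linarith⟩ with h | h <;> linarith

lemma mem_Om_of_far (hw : IsARFlow w I A) (hθ0 : 0 ≤ θ) (hθ : θ ≤ 1 / 10) (hθc : θ ≤ c₁ / 10)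
    (ht : t ∈ I) (hx : w t x = 0) {z : E3} (hz : w t z = 0) {y' : ℝ} (h1 : ‖z - x‖ < Real.exp y')
    (h2 : ‖z - x‖ ≤ Real.exp (y + 1 / 2))
    (h3 : c₁ / 2 * Real.exp (y + 1 / 2) < |⟪z - x, gradient (w t) x⟫|) :
    y' ∈ Om w I A σ θ t x := by
  refine Or.inl (not_reg hw.toIsFlow ht hx hz hθ0 hθ h1 (lt_of_le_of_lt ?_ h3))
  have h4 := Real.exp_pos (y + 1 / 2)
  nlinarith [norm_nonneg (z - x), mul_le_mul_of_nonneg_left h2 hθ0]

/-- **CL** -/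
theorem cl (hC : Calc) (hQ : QSat A c₁ θ σ δ) (hw : IsARFlow w I A) (hσ : 0 < σ) (hσ1 : σ ≤ 1)
    (hc : 0 < c₁) (hθ0 : 0 ≤ θ) (hθ : θ ≤ 1 / 10) (hθc : θ ≤ c₁ / 10) (hq : Quiet w I δ t x y)
    (hx : w t x = 0)
    (hf : ∃ᶠ q : TL in 𝓝 (t, x, y), w q.1 q.2.1 = 0 ∧ q.2.2 ∈ Om w I A σ θ q.1 q.2.1)
    {η : ℝ} (hη : 0 < η) : y + η ∈ Om w I A σ θ t x := by
  have hA := hw.one_le
  by_cases h13 : 13 / 10 < tbar w σ t x (y - (20 * A - 13))
  · exact Om_up (mem_Om_of_tbar hw hσ1 hq h13) (by linarith)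
  rcases cl_core hC hQ hw hσ hσ1 hq (not_lt.1 h13) hf with ⟨z, h1, h2, h3⟩ | ⟨y', h1, h2, h3⟩
  · refine mem_Om_of_far (y := y) hw hθ0 hθ hθc (Quiet.mem hq) hx h2
      (h1.trans_lt (Real.exp_lt_exp.2 (by linarith))) (h1.trans (Real.exp_le_exp.2 (by linarith)))
      (lt_of_lt_of_le ?_ h3)
    nlinarith [Real.exp_pos (y + 1 / 2)]
  · rcases h2.lt_or_eq with h | h
    · exact Or.inr ⟨y', Quiet.window hσ1 hq (by linarith [h1.2]), h, by linarith⟩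
    · have h4 := (hQ w I hw t x y hq).2 y' (by linarith [h1.1]) (by linarith) (by linarith)
      exact Or.inr ⟨y' + 2, Quiet.window hσ1 hq (by linarith), by linarith, by linarith⟩

/-- **CL**, uniform version: levels below the lowest level stay outside `Om` nearby -/
theorem cl_ev (hC : Calc) (hQ : QSat A c₁ θ σ δ) (hw : IsARFlow w I A) (hσ : 0 < σ) (hσ1 : σ ≤ 1)
    (hc : 0 < c₁) (hθ0 : 0 ≤ θ) (hθ : θ ≤ 1 / 10) (hθc : θ ≤ c₁ / 10) (hq : Quiet w I δ t x y)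
    (hx : w t x = 0) {y' : ℝ} (hy : y < y') (h : y' ∉ Om w I A σ θ t x) :
    ∀ᶠ q : TL in 𝓝 (t, x, y), w q.1 q.2.1 = 0 → q.2.2 ∉ Om w I A σ θ q.1 q.2.1 := by
  by_contra hne
  rw [not_eventually] at hne
  have := cl hC hQ hw hσ hσ1 hc hθ0 hθ hθc hq hx (hne.mono fun q hq => by
    simpa only [Classical.not_imp, not_not] using hq) (sub_pos.2 hy)
  exact h (by rwa [add_sub_cancel] at this)

/-- **the dichotomy** at the lowest level `y` of `Om`, if it is quiet -/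
theorem dich (hC : Calc) (hQ : QSat A c₁ θ σ δ) (hw : IsARFlow w I A) (hσ : 0 < σ) (hσ1 : σ ≤ 1)
    (hc : 0 < c₁) (hθ0 : 0 ≤ θ) (hθ : θ ≤ 1 / 10) (hθc : θ ≤ c₁ / 10) (hq : Quiet w I δ t x y)
    (hx : w t x = 0) (hy : y ∉ Om w I A σ θ t x) (hy' : ∀ η > 0, y + η ∈ Om w I A σ θ t x) :
    Reg (w t) θ x (Real.exp y) ∧
    ((∃ y', y - (20 * A - 13) - 3 ≤ y' ∧ y' < y ∧ Icc (t - σ * Real.exp (2 * y')) t ⊆ I ∧
      3 / 2 ≤ tbar w σ t x y' ∧ y' + 10 * (2 * A - tbar w σ t x y') = y) ∨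
    ∃ z, w t z = 0 ∧ ‖z - x‖ = Real.exp y ∧
      c₁ * Real.exp (y + 1 / 2) ≤ |⟪z - x, gradient (w t) x⟫| ∧
      z - x = ⟪gradient (w t) z, z - x⟫ • gradient (w t) z) := by
  have hA := hw.one_le
  have ht := Quiet.mem hq
  refine ⟨by_contra fun h => hy (Or.inl h), ?_⟩
  have h13 : tbar w σ t x (y - (20 * A - 13)) ≤ 13 / 10 :=
    not_lt.1 fun h => hy (mem_Om_of_tbar hw hσ1 hq h)
  have hf : ∃ᶠ q : TL in 𝓝 (t, x, y), w q.1 q.2.1 = 0 ∧ q.2.2 ∈ Om w I A σ θ q.1 q.2.1 := by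
    have h1 : Tendsto (fun η : ℝ => ((t, x, y + η) : TL)) (𝓝[>] 0) (𝓝 (t, x, y)) :=
      (Continuous.tendsto' (by fun_prop) _ _ (by simp)).mono_left nhdsWithin_le_nhds
    refine h1.frequently (Eventually.frequently ?_)
    filter_upwards [self_mem_nhdsWithin] with η hη using ⟨hx, hy' η hη⟩
  have he := Real.exp_pos (y + 1 / 2)
  have he' : Real.exp y < Real.exp (y + 1 / 2) := Real.exp_lt_exp.2 (by linarith)
  rcases cl_core hC hQ hw hσ hσ1 hq h13 hf with ⟨z, h1, h2, h3⟩ | ⟨y', h1, h2, h3⟩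
  · right
    have h4 : ∀ z', w t z' = 0 → ‖z' - x‖ ≤ Real.exp (y + 1 / 2) →
        c₁ / 2 * Real.exp (y + 1 / 2) < |⟪z' - x, gradient (w t) x⟫| → Real.exp y ≤ ‖z' - x‖ :=
      fun z' a1 a2 a3 => not_lt.1 fun a4 => hy (mem_Om_of_far hw hθ0 hθ hθc ht hx a1 a4 a2 a3)
    have h5 : c₁ / 2 * Real.exp (y + 1 / 2) < |⟪z - x, gradient (w t) x⟫| := by nlinarith
    have h6 : ‖z - x‖ = Real.exp y := le_antisymm h1 (h4 z h2 (h1.trans he'.le) h5)
    refine ⟨z, h2, h6, h3, normal_of_min hw.toIsFlow ht h2 ?_⟩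
    filter_upwards [ContinuousAt.eventually_lt (f := fun z' : E3 => ‖z' - x‖) (by fun_prop)
      continuousAt_const (h1.trans_lt he'), continuousAt_const.eventually_lt
      (g := fun z' : E3 => |⟪z' - x, gradient (w t) x⟫|) (by fun_prop) h5] with z' a1 a2 a3
    exact h6 ▸ h4 z' a3 a1.le a2
  · left
    have h4 := Quiet.window hσ1 hq (y' := y') (by linarith [h1.2])
    have h5 := tbar_le_AR hw hσ x h4
    have h6 : 3 / 2 ≤ tbar w σ t x y' := by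
      by_contra h7
      rw [not_le] at h7
      have h8 := (hQ w I hw t x y hq).2 y' (by linarith [h1.1]) (by linarith) (by linarith)
      exact hy (Or.inr ⟨y' + 2, Quiet.window hσ1 hq (by linarith), by linarith, by linarith⟩)
    exact ⟨y', h1.1, by linarith, h4, h6, le_antisymm h3
      (not_lt.1 fun h => hy (Or.inr ⟨y', h4, by linarith, h⟩))⟩

end Vale.Agent.P218UN
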