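import Vale.Agent.P218UA.Props
import Vale.Agent.P218UG.FlowB

/-! The local Gauss-Bonnet estimate along a flow. -/

open MeasureTheory Set Filter Topology Metric
open scoped ENNReal NNReal RealInnerProductSpace ContDiff

namespace Vale.Agent.P218UN

open Vale.Agent.P218UA Vale.Agent.P218UG
open Vale.Agent.P218.H63 (lap hessSq)

lemma LGB_mono {w : E3 → ℝ} {C C' : ℝ} (h : LGB w C) (hC : C ≤ C') : LGB w C' := fun z r hr =>
  (h z r hr).trans (mul_le_mul_of_nonneg_right hC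
    (add_nonneg zero_le_one (integral_nonneg fun _ => sq_nonneg _)))

/-- the total curvature is continuous in time -/
lemma continuousOn_total (hC : Calc) {w : ℝ → E3 → ℝ} {I : Set ℝ} (h : IsFlow w I)
    (hK : ∀ a ∈ I, ∀ b ∈ I, IsCompact {p : ℝ × E3 | p.1 ∈ Icc a b ∧ w p.1 p.2 = 0}) :
    ContinuousOn (fun t => ∫ x, (lap (w t) x ^ 2 - hessSq (w t) x) / 2 ∂(ar (w t))) I := by
  intro t ht
  obtain ⟨ε, hε, hb⟩ := Metric.isOpen_iff.1 h.isOpen t ht
  have hI : Icc (t - ε / 2) (t + ε / 2) ⊆ I := fun s hs => hb (by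
    rw [Real.ball_eq_Ioo]; exact ⟨by linarith [hs.1], by linarith [hs.2]⟩)
  have hle : t - ε / 2 ≤ t + ε / 2 := by linarith
  obtain ⟨R, hR, hsub⟩ := ((hK _ (hI (left_mem_Icc.2 hle)) _ (hI (right_mem_Icc.2 hle))).image
    continuous_snd).isBounded.subset_ball_lt 0 (0 : E3)
  let β : ContDiffBump (0 : E3) := ⟨R, R + 1, hR, by linarith⟩
  have hJ : Ioo (t - ε / 2) (t + ε / 2) ⊆ I := Ioo_subset_Icc_self.trans hI
  have h1 := hC.param w I h 0 ℝ id
    (fun s x => β x * ((lap (w s) x ^ 2 - hessSq (w s) x) / 2)) _ isOpen_Ioo contDiffOn_id hJ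
    (by
      rw [Nat.cast_zero, contDiffOn_zero]
      intro p hp
      have c1 := (flow_lap h (hJ hp.1) p.2).continuousAt
      have c2 := (flow_hs h (hJ hp.1) p.2).continuousAt
      have c3 : ContinuousAt (fun p : ℝ × E3 => hessSq (w p.1) p.2) (p.1, p.2) :=
        (trL E3).continuous.continuousAt.comp (c2.clm_comp c2)
      exact ((β.continuous.comp continuous_snd).continuousAt.mul
        (((c1.pow 2).sub c3).div_const 2)).continuousWithinAt)
    _ (isCompact_closedBall (0 : E3) (R + 1)) fun s _ x hx => by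
      rw [β.zero_of_le_dist (le_of_lt (not_le.1 hx)), zero_mul]
  have h2 : Ioo (t - ε / 2) (t + ε / 2) ∈ 𝓝 t := Ioo_mem_nhds (by linarith) (by linarith)
  refine ((h1.continuousOn.continuousAt h2).congr ?_).continuousWithinAt
  filter_upwards [h2] with s hs
  refine integral_congr_ae ?_
  filter_upwards [ae_restrict_mem (surf_meas (flow_slice h (hJ hs)))] with x hx
  rw [β.one_of_mem_closedBall (ball_subset_closedBall
    (hsub ⟨(s, x), ⟨Ioo_subset_Icc_self hs, hx⟩, rfl⟩)), one_mul]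

lemma const_of_int {k : ℝ → ℝ} {I : Set ℝ} (hI : IsPreconnected I) (hk : ContinuousOn k I)
    (h : ∀ t ∈ I, ∃ n : ℤ, k t = 2 * Real.pi * n) {s t : ℝ} (hs : s ∈ I) (ht : t ∈ I) :
    k t ≤ k s := by
  by_contra hlt
  obtain ⟨n, hn⟩ := h s hs
  obtain ⟨m, hm⟩ := h t ht
  have hπ := Real.pi_pos
  have h1 : (n : ℝ) < m := by
    rw [hn, hm, not_le] at hlt
    exact lt_of_mul_lt_mul_left hlt (by positivity)
  have h2 : (n : ℝ) + 1 ≤ m := by exact_mod_cast (show n < m by exact_mod_cast h1)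
  obtain ⟨u, hu, h3⟩ := hI.intermediate_value hs ht hk
    (show 2 * Real.pi * (n + 1 / 2) ∈ Icc (k s) (k t) from ⟨by rw [hn]; nlinarith,
      by rw [hm]; nlinarith⟩)
  obtain ⟨l, hl⟩ := h u hu
  have h4 : (l : ℝ) = n + 1 / 2 := mul_left_cancel₀ (by positivity) (hl.symm.trans h3)
  have h5 : (2 * l : ℤ) = 2 * n + 1 := by
    have : (2 * l : ℝ) = 2 * n + 1 := by linarith
    exact_mod_cast this
  omega

/-- **[LGB-flow]** -/
theorem lgbFlow (hC : Calc) (hS : LGBStaticStmt) : LGBFlowStmt := by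
  intro w I A h hK hc
  obtain ⟨C, hS⟩ := hS A
  have h1 := fun t (ht : t ∈ I) => hS (w t) (flow_slice h.toIsFlow ht) (by
    have := (hK t ht t ht).image continuous_snd
    convert this using 1
    ext x
    exact ⟨fun hx => ⟨(t, x), ⟨left_mem_Icc.2 le_rfl, hx⟩, rfl⟩, by
      rintro ⟨p, ⟨h1, h2⟩, rfl⟩
      rwa [le_antisymm h1.2 h1.1] at h2⟩) (hc t ht) (h.ratio t ht)
  rcases I.eq_empty_or_nonempty with rfl | ⟨s, hs⟩
  · exact ⟨1, h, le_rfl, fun t ht => ht.elim⟩
  refine ⟨max 1 (C * (1 + |∫ x, (lap (w s) x ^ 2 - hessSq (w s) x) / 2 ∂(ar (w s))|)), h,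
    le_max_left _ _, fun t ht => LGB_mono (h1 t ht).2 (le_max_of_le_right (le_of_eq ?_))⟩
  have h2 := continuousOn_total hC h.toIsFlow hK
  rw [le_antisymm (const_of_int h.conn.isPreconnected h2 (fun t ht => (h1 t ht).1) hs ht)
    (const_of_int h.conn.isPreconnected h2 (fun t ht => (h1 t ht).1) ht hs)]

end Vale.Agent.P218UN
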