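import Vale.Agent.P218UO.Foot
import Vale.Agent.P218UD.RegS
import Vale.Agent.P218UP.Avg

/-! The sets `Om`: joint regularity of `tbar`, openness, lower bounds on compact sets. -/

open MeasureTheory Set Filter Topology Metric
open scoped RealInnerProductSpace ContDiff

namespace Vale.Agent.P218UN

open Vale.Agent.P218UA Vale.Agent.P218UM Vale.Agent.P218UG Vale.Agent.P218UO Vale.Agent.P218UD

/-- time, position, level -/
abbrev TL := ℝ × E3 × ℝ

variable {w : ℝ → E3 → ℝ} {I : Set ℝ} {A σ θ δ : ℝ}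

/-- the mass ratio is jointly `C²` -/
theorem contDiffAt_mk (hC : Calc) (hw : IsFlow w I) {a : TL} (ha : a.1 ∈ I) :
    ContDiffAt ℝ 2 (fun q : TL => mk (ar (w q.1)) q.2.1 (Real.exp q.2.2)) a := by
  have hU : IsOpen {q : TL | q.1 ∈ I ∧ ‖q.2.1 - a.2.1‖ < 1 ∧ q.2.2 < a.2.2 + 1} :=
    (hw.isOpen.preimage continuous_fst).inter
      ((isOpen_lt (f := fun q : TL => ‖q.2.1 - a.2.1‖) (by fun_prop) continuous_const).inter
      (isOpen_lt (f := fun q : TL => q.2.2) (by fun_prop) continuous_const))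
  have h1 := hC.param w I hw 2 TL (fun q => q.1)
    (fun q z => kk ((Real.exp q.2.2)⁻¹ • (z - q.2.1))) _ hU contDiff_fst.contDiffOn
    (fun q hq => hq.1) (ContDiff.contDiffOn (contDiff_kk.comp (ContDiff.smul
      ((Real.contDiff_exp.comp (by fun_prop)).inv fun _ => (Real.exp_pos _).ne') (by fun_prop))))
    _ (isCompact_closedBall a.2.1 (1 + Real.exp (a.2.2 + 1))) fun q hq z hz => by
      rw [mem_closedBall_iff_norm, not_le] at hz
      refine kk_scale_zero (Real.exp_pos _) ?_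
      have h2 := norm_sub_le_norm_sub_add_norm_sub z q.2.1 a.2.1
      linarith [hq.2.1, Real.exp_le_exp.2 hq.2.2.le]
  have h2 := h1.contDiffAt (hU.mem_nhds ⟨ha, by simp, by simp⟩)
  exact h2.div ((Real.contDiff_exp.comp (by fun_prop)).pow 2).contDiffAt
    (pow_pos (Real.exp_pos _) 2).ne'

lemma tbar_eq (hσ : 0 < σ) (t : ℝ) (x : E3) (y : ℝ) : tbar w σ t x y
    = ∫ τ in (0 : ℝ)..1, mk (ar (w (t - σ * Real.exp (2 * y) * τ))) x (Real.exp y) := by
  have h0 : σ * Real.exp (2 * y) ≠ 0 := by positivity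
  rw [intervalIntegral.integral_comp_sub_mul (f := fun t' => mk (ar (w t')) x (Real.exp y)) h0,
    tbar, mul_one, mul_zero, sub_zero, smul_eq_mul, div_eq_inv_mul]

/-- the average of the mass ratio is jointly `C²` -/
theorem contDiffAt_tbar (hC : Calc) (hw : IsFlow w I) (hσ : 0 < σ) {a : TL}
    (ha : Icc (a.1 - σ * Real.exp (2 * a.2.2)) a.1 ⊆ I) :
    ContDiffAt ℝ 2 (fun q : TL => tbar w σ q.1 q.2.1 q.2.2) a := by
  simp only [tbar_eq hσ]
  have hc : ContDiff ℝ 2 fun z : TL × ℝ =>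
      ((z.1.1 - σ * Real.exp (2 * z.1.2.2) * z.2, z.1.2.1, z.1.2.2) : TL) := by fun_prop
  refine (parInt (W := {z : TL × ℝ | z.1.1 - σ * Real.exp (2 * z.1.2.2) * z.2 ∈ I})
    (f := fun z : TL × ℝ => mk (ar (w (z.1.1 - σ * Real.exp (2 * z.1.2.2) * z.2))) z.1.2.1
      (Real.exp z.1.2.2)) (hw.isOpen.preimage (by fun_prop))
    (fun z hz => ContDiffAt.contDiffWithinAt (ContDiffAt.comp z
      (g := fun q : TL => mk (ar (w q.1)) q.2.1 (Real.exp q.2.2))
      (f := fun z : TL × ℝ => ((z.1.1 - σ * Real.exp (2 * z.1.2.2) * z.2, z.1.2.1, z.1.2.2) : TL))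
      (contDiffAt_mk hC hw hz) hc.contDiffAt)) fun τ hτ => ha ?_).1
  have h0 : 0 < σ * Real.exp (2 * a.2.2) := by positivity
  exact ⟨by nlinarith [hτ.2], by nlinarith [hτ.1]⟩

lemma ev_Icc {X : Type*} [TopologicalSpace X] (hI : IsOpen I) (hc : I.OrdConnected)
    {f g : X → ℝ} {a : X} (hf : ContinuousAt f a) (hg : ContinuousAt g a) (hle : f a ≤ g a)
    (h : Icc (f a) (g a) ⊆ I) : ∀ᶠ q in 𝓝 a, Icc (f q) (g q) ⊆ I := by
  filter_upwards [hf.eventually (hI.mem_nhds (h (left_mem_Icc.2 hle))),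
    hg.eventually (hI.mem_nhds (h (right_mem_Icc.2 hle)))] with q h1 h2
  exact hc.out h1 h2

/-- **conjunct 1 of `CoreStmt`** -/
theorem isOpen_Om (hC : Calc) (hw : IsFlow w I) (hσ : 0 < σ) :
    IsOpen {p : TL | p.1 ∈ I ∧ p.2.2 ∈ Om w I A σ θ p.1 p.2.1} := by
  rw [isOpen_iff_mem_nhds]
  rintro a ⟨ha, h | ⟨y', h1, h2, h3⟩⟩
  · filter_upwards [continuousAt_fst.eventually (hw.isOpen.mem_nhds ha), ev_not_reg hw ha h]
      with b h1 h2 using ⟨h1, Or.inl h2⟩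
  have h0 : 0 < σ * Real.exp (2 * y') := by positivity
  have h4 : ContinuousAt (fun q : TL => tbar w σ q.1 q.2.1 y') a :=
    ContinuousAt.comp (f := fun q : TL => ((q.1, q.2.1, y') : TL))
      (contDiffAt_tbar hC hw hσ (a := (a.1, a.2.1, y')) h1).continuousAt (by fun_prop)
  filter_upwards [continuousAt_fst.eventually (hw.isOpen.mem_nhds ha),
    ev_Icc hw.isOpen hw.conn (f := fun q : TL => q.1 - σ * Real.exp (2 * y'))
      (g := fun q : TL => q.1) (by fun_prop) (by fun_prop) (by linarith) h1,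
    continuousAt_const.eventually_lt h4 h2,
    ContinuousAt.eventually_lt (f := fun q : TL => y' + 10 * (2 * A - tbar w σ q.1 q.2.1 y'))
      (g := fun q : TL => q.2.2) (by fun_prop) (by fun_prop) h3] with b g1 g2 g3 g4
  exact ⟨g1, Or.inr ⟨y', g2, g3, g4⟩⟩

lemma isOpen_Om_slice (hC : Calc) (hw : IsFlow w I) (hσ : 0 < σ) {t : ℝ} (ht : t ∈ I) (x : E3) :
    IsOpen (Om w I A σ θ t x) := by
  have h := (isOpen_Om (A := A) (θ := θ) hC hw hσ).preimage
    (f := fun y : ℝ => ((t, x, y) : TL)) (by fun_prop)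
  convert h using 1
  ext y
  exact ⟨fun h => ⟨ht, h⟩, fun h => h.2⟩

/-- near a point of the track the sets `Om` are uniformly bounded below -/
lemma ev_lower (hC : Calc) (hD : CylDensStmt) (hw : IsARFlow w I A) (hσ : 0 < σ) (hσ1 : σ ≤ 1)
    (hθ0 : 0 < θ) (hθ : θ ≤ 1 / 10) {p : ST} (hp : p.1 ∈ I) (h : w p.1 p.2 = 0) :
    ∃ y₀ : ℝ, ∀ᶠ q in 𝓝 p, ∀ y ∈ Om w I A σ θ q.1 q.2, y₀ < y := by
  obtain ⟨ρ, hρ, H⟩ := ev_reg hw.toIsFlow hp h hθ0
  have hr : 0 < min (ρ / 2) 1 := lt_min (by linarith) one_pos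
  have h1 := min_le_left (ρ / 2) 1
  have h2 := min_le_right (ρ / 2) 1
  set r := min (ρ / 2) 1
  refine ⟨Real.log r, ?_⟩
  filter_upwards [ball_mem_nhds p (half_pos hρ)] with q hq y hy
  rw [← ball_prod_same] at hq
  by_contra hle
  refine notMem_Om hC hD hw hσ hσ1 hθ (r := r) ?_ (fun t' ht' => ?_) hy
  · exact (Real.exp_le_exp.2 (not_lt.1 hle)).trans (Real.exp_log hr).le
  · have h3 := abs_lt.1 (show |q.1 - p.1| < ρ / 2 from hq.1)
    refine reg_subset (H t' (abs_lt.2 ⟨by nlinarith [ht'.1], by linarith [ht'.2]⟩)).2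
      (ball_subset_ball' ?_)
    linarith [mem_ball.1 hq.2]

/-- **conjunct 2 of `CoreStmt`** -/
theorem lower_Om (hC : Calc) (hD : CylDensStmt) (hw : IsARFlow w I A) (hσ : 0 < σ) (hσ1 : σ ≤ 1)
    (hθ0 : 0 < θ) (hθ : θ ≤ 1 / 10) (K : Set (ℝ × E3)) (hK : IsCompact K)
    (hKI : K ⊆ I ×ˢ univ) :
    ∃ y₀ : ℝ, ∀ p ∈ K, w p.1 p.2 = 0 → ∀ y ∈ Om w I A σ θ p.1 p.2, y₀ < y := by
  refine hK.induction_on (p := fun K => ∃ y₀ : ℝ, ∀ p ∈ K, w p.1 p.2 = 0 →
    ∀ y ∈ Om w I A σ θ p.1 p.2, y₀ < y) ⟨0, fun p hp => hp.elim⟩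
    (fun s t hst ⟨y₀, h⟩ => ⟨y₀, fun p hp => h p (hst hp)⟩)
    (fun s t ⟨a, ha⟩ ⟨b, hb⟩ => ⟨min a b, fun p hp h0 y hy => hp.elim
      (fun h => (min_le_left _ _).trans_lt (ha p h h0 y hy))
      fun h => (min_le_right _ _).trans_lt (hb p h h0 y hy)⟩) fun p hp => ?_
  by_cases h : w p.1 p.2 = 0
  · obtain ⟨y₀, h1⟩ := ev_lower hC hD hw hσ hσ1 hθ0 hθ (hKI hp).1 h
    exact ⟨_, mem_nhdsWithin_of_mem_nhds h1, y₀, fun q hq _ => hq⟩
  · have h1 := (cd_Wt hw.toIsFlow (hKI hp).1).continuousAt.eventually_ne h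
    exact ⟨_, mem_nhdsWithin_of_mem_nhds h1, 0, fun q hq h0 => absurd h0 hq⟩

/-- being quiet is an open condition -/
theorem ev_quiet (hC : Calc) (hw : IsARFlow w I A) {a : TL} (h : Quiet w I δ a.1 a.2.1 a.2.2) :
    ∀ᶠ q : TL in 𝓝 a, Quiet w I δ q.1 q.2.1 q.2.2 := by
  obtain ⟨z, r, h1, h2, h3, h4, h5⟩ := h
  have hr : 0 < r := (Real.exp_pos _).trans h2
  have h6 : ContinuousAt (fun q : TL => bbar w z r q.1) a :=
    (P218UP.bbar_smooth hC hw z hr h4).continuousAt.comp continuousAt_fst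
  filter_upwards [ContinuousAt.eventually_lt (f := fun q : TL => ‖z - q.2.1‖) (by fun_prop)
      continuousAt_const h1,
    ContinuousAt.eventually_lt (f := fun q : TL => Real.exp (q.2.2 + 1)) (by fun_prop)
      continuousAt_const h2,
    continuousAt_const.eventually_lt (g := fun q : TL => Real.exp (q.2.2 + 3)) (by fun_prop) h3,
    ev_Icc hw.isOpen hw.conn (f := fun q : TL => q.1 - r ^ 2) (g := fun q : TL => q.1)
      (by fun_prop) (by fun_prop) (by nlinarith) h4,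
    h6.eventually_lt continuousAt_const h5] with q g1 g2 g3 g4 g5
  exact ⟨z, r, g1, g2, g3, g4, g5⟩

theorem isOpen_quiet (hC : Calc) (hw : IsARFlow w I A) :
    IsOpen {q : TL | Quiet w I δ q.1 q.2.1 q.2.2} :=
  isOpen_iff_mem_nhds.2 fun _ h => ev_quiet hC hw h

/-- the time windows below a quiet level lie in the time interval -/
lemma Quiet.window (hσ1 : σ ≤ 1) {t y y' : ℝ} {x : E3} (h : Quiet w I δ t x y)
    (hy : y' ≤ y + 1) : Icc (t - σ * Real.exp (2 * y')) t ⊆ I := by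
  obtain ⟨z, r, -, h2, -, h4, -⟩ := h
  refine (Icc_subset_Icc_left ?_).trans h4
  have h5 : Real.exp y' ≤ r := (Real.exp_le_exp.2 hy).trans h2.le
  have h6 := Real.exp_pos y'
  rw [two_mul, Real.exp_add]
  nlinarith [mul_le_mul h5 h5 h6.le (h6.le.trans h5)]

lemma Quiet.mem {t y : ℝ} {x : E3} (h : Quiet w I δ t x y) : t ∈ I := by
  obtain ⟨z, r, -, -, -, h4, -⟩ := h
  exact h4 (right_mem_Icc.2 (by nlinarith))

lemma tbar_le_AR (hw : IsARFlow w I A) (hσ : 0 < σ) {t y : ℝ} (x : E3)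
    (h : Icc (t - σ * Real.exp (2 * y)) t ⊆ I) : tbar w σ t x y ≤ 4 / 3 * A :=
  tbar_le hσ fun t' ht' =>
    mk_le (hw.ratio t' (h ht')) (by linarith [hw.one_le]) x (Real.exp_pos _)

end Vale.Agent.P218UN
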